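import Vale.Agent.P153D.Law
import Vale.Agent.P153D.Seq
import Vale.Agent.P153D.Fou
import Vale.Agent.P153DC.Ala
import Vale.Agent.P153DS.Syn
import Vale.Agent.P153DN.Nuc
import Vale.Agent.P153DT.Tig
import Vale.Agent.P153DU.Uni

/-!
Convergence in law in the space of distributions from the one-dimensional Gaussian limits.
-/

set_option autoImplicit false
set_option linter.all false

namespace Vale.Agent.P145W28

open MeasureTheory ProbabilityTheory Filter Topology Set TopologicalSpace Vale.Agent.P153D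

theorem nuc : NUC := Vale.Agent.P153DN.nuc_of fou2 Vale.Agent.P153DS.syn

theorem tig : TIG := Vale.Agent.P153DT.tig_of seq nuc P153DC.ala

theorem uni : UNI := P153DU.uni_of tig (Vale.Agent.P153DN.sep_of nuc)

theorem fer : FER := Vale.Agent.P153DT.fer_of tig uni

variable {Ω : Opens ℂ} {Om : ℕ → Type} {m : ∀ n, MeasurableSpace (Om n)}
  {μ : ∀ n, Measure (Om n)} [∀ n, IsProbabilityMeasure (μ n)] {X : ∀ n, Om n → Di Ω}

/-- The limit law exists. -/
theorem exists_lim (hX : ∀ n, AEMeasurable (X n) (μ n)) {w : Te Ω → NNReal}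
    (h : ∀ f, TendstoInDistribution (fun n ω => X n ω f) atTop id μ (gaussianReal 0 (w f))) :
    ∃ Q : Measure (Di Ω), ∃ _ : IsProbabilityMeasure Q,
      (∀ f : Te Ω, Q.map (fun T => T f) = gaussianReal 0 (w f)) ∧
      TendstoInDistribution X atTop id μ Q := by
  obtain ⟨Q, h1, h2⟩ := fer Ω
    (fun n => ⟨(μ n).map (X n), Measure.isProbabilityMeasure_map (hX n)⟩)
    (fun f => ⟨gaussianReal 0 (w f), inferInstance⟩) fun f => by
      have h3 := (h f).tendsto
      simp only [Measure.map_id] at h3
      refine h3.congr fun n => Subtype.ext ?_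
      exact (AEMeasurable.map_map_of_aemeasurable (meas_ev f).aemeasurable (hX n)).symm
  refine ⟨Q, Q.2, fun f => congrArg Subtype.val (h1 f), hX, aemeasurable_id, ?_⟩
  simp only [Measure.map_id]
  exact h2

/-- The one-dimensional laws of `s T`. -/
theorem map_smul {P : Measure (Di Ω)} {v : Te Ω → ℝ} (hv : ∀ f, 0 ≤ v f)
    (hP : ∀ f : Te Ω, P.map (fun T => T f) = gaussianReal 0 (v f).toNNReal) (s : ℝ) (f : Te Ω) :
    (P.map fun T => s • T).map (fun T => T f) = gaussianReal 0 (s ^ 2 * v f).toNNReal := by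
  have h1 : Continuous fun T : Di Ω => s • T := by fun_prop
  rw [Measure.map_map (meas_ev f) h1.measurable]
  have h2 : (fun T : Di Ω => T f) ∘ (fun T => s • T) =
      (fun x => s * x) ∘ fun T : Di Ω => T f := rfl
  rw [h2, ← Measure.map_map (by fun_prop) (meas_ev f), hP, gaussianReal_map_const_mul, mul_zero]
  congr 1
  ext
  simp only [NNReal.coe_mul, NNReal.coe_mk, Real.coe_toNNReal _ (hv f),
    Real.coe_toNNReal _ (mul_nonneg (sq_nonneg s) (hv f))]

/-- Convergence in law in the space of distributions. -/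
theorem law_of (hX : ∀ n, AEMeasurable (X n) (μ n)) {P : Measure (Di Ω)} [IsProbabilityMeasure P]
    {v : Te Ω → ℝ} (hv : ∀ f, 0 ≤ v f)
    (hP : ∀ f : Te Ω, P.map (fun T => T f) = gaussianReal 0 (v f).toNNReal) (s : ℝ)
    (h : ∀ f, TendstoInDistribution (fun n ω => X n ω f) atTop id μ
      (gaussianReal 0 (s ^ 2 * v f).toNNReal)) :
    TendstoInDistribution X atTop (fun T => s • T) μ P := by
  obtain ⟨Q, hQ, h2, h3⟩ := exists_lim hX h
  have h4 : Continuous fun T : Di Ω => s • T := by fun_prop
  have h5 : Q = P.map fun T => s • T :=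
    uni Ω _ _ hQ (Measure.isProbabilityMeasure_map h4.measurable.aemeasurable) fun f => by
      rw [h2, map_smul hv hP s]
  refine ⟨hX, h4.measurable.aemeasurable, ?_⟩
  have h6 := h3.tendsto
  simp only [Measure.map_id] at h6
  subst h5
  exact h6

/-- Convergence in law of the vectors. -/
theorem vec_of {P : Measure (Di Ω)} [IsProbabilityMeasure P] {s : ℝ}
    (h : TendstoInDistribution X atTop (fun T => s • T) μ P) {k : ℕ} (φ : Fin k → Te Ω) :
    TendstoInDistribution (fun n ω i => X n ω (φ i)) atTop (fun T i => s * T (φ i)) μ P :=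
  h.continuous_comp (g := fun (T : Di Ω) (i : Fin k) => T (φ i))
    (continuous_pi fun i => cont_ev (φ i))

/-- Convergence in law of the vectors, in the Euclidean space. -/
theorem vec_of' {P : Measure (Di Ω)} [IsProbabilityMeasure P] {s : ℝ}
    (h : TendstoInDistribution X atTop (fun T => s • T) μ P) {k : ℕ} (φ : Fin k → Te Ω) :
    TendstoInDistribution
      (fun n ω => (WithLp.toLp 2 fun i => X n ω (φ i) : EuclideanSpace ℝ (Fin k))) atTop
      (fun T => (WithLp.toLp 2 fun i => s * T (φ i) : EuclideanSpace ℝ (Fin k))) μ P :=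
  h.continuous_comp
    (g := fun (T : Di Ω) => (WithLp.toLp 2 fun i => T (φ i) : EuclideanSpace ℝ (Fin k)))
    ((PiLp.continuous_toLp 2 _).comp (continuous_pi fun i => cont_ev (φ i)))

/-- The Gaussian law exists as soon as a multiple of it is a limit. -/
theorem exists_law (hX : ∀ n, AEMeasurable (X n) (μ n)) {v : Te Ω → ℝ} (hv : ∀ f, 0 ≤ v f)
    {c : ℝ} (hc : 0 < c) (h : ∀ f, TendstoInDistribution (fun n ω => X n ω f) atTop id μ
      (gaussianReal 0 (c * v f).toNNReal)) :
    ∃ P : Measure (Di Ω), IsProbabilityMeasure P ∧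
      ∀ f : Te Ω, P.map (fun T => T f) = gaussianReal 0 (v f).toNNReal := by
  obtain ⟨Q, hQ, h2, -⟩ := exists_lim hX h
  have h4 : Continuous fun T : Di Ω => (√c)⁻¹ • T := by fun_prop
  refine ⟨Q.map fun T => (√c)⁻¹ • T,
    Measure.isProbabilityMeasure_map h4.measurable.aemeasurable, fun f => ?_⟩
  rw [map_smul (fun f => mul_nonneg hc.le (hv f)) h2, inv_pow, Real.sq_sqrt hc.le,
    inv_mul_cancel_left₀ hc.ne']

/-- From vectors of length one to real random variables. -/
theorem one_dim {Y : ∀ n, Om n → ℝ} {a : ℝ}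
    (hS : (Matrix.of fun _ _ : Fin 1 => a).PosSemidef)
    (h : TendstoInDistribution
      (fun n ω => (WithLp.toLp 2 fun _ => Y n ω : EuclideanSpace ℝ (Fin 1))) atTop id μ
      (multivariateGaussian 0 (Matrix.of fun _ _ : Fin 1 => a))) :
    TendstoInDistribution Y atTop id μ (gaussianReal 0 a.toNNReal) := by
  have h1 := h.continuous_comp (g := fun x : EuclideanSpace ℝ (Fin 1) => x 0) (by fun_prop)
  have h2 := (measurePreserving_eval_multivariateGaussian (μ := 0) hS (i := 0)).map_eq
  refine ⟨h1.forall_aemeasurable, aemeasurable_id, ?_⟩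
  have h3 := h1.tendsto
  have h4 : (multivariateGaussian 0 (Matrix.of fun _ _ : Fin 1 => a)).map
      ((fun x : EuclideanSpace ℝ (Fin 1) => x 0) ∘ id) = (gaussianReal 0 a.toNNReal).map id := by
    rw [Measure.map_id]
    exact h2
  simp only [h4] at h3
  exact h3

/-- Finite sums of Dirac masses are distributions. -/
noncomputable def dsum (Ω : Opens ℂ) {ι : Type} (S : Finset ι) (x : ι → ℂ) (c : ι → ℝ) : Di Ω :=
  ∑ i ∈ S, c i • (Distribution.delta (x i) : Di Ω)

theorem dsum_apply {ι : Type} (S : Finset ι) (x : ι → ℂ) (c : ι → ℝ) (f : Te Ω) :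
    dsum Ω S x c f = ∑ i ∈ S, c i * f (x i) := by
  rw [dsum]
  induction S using Finset.cons_induction with
  | empty => rfl
  | cons a t ha ih =>
    rw [Finset.sum_cons, Finset.sum_cons, ← ih, ← Distribution.delta_apply (x a) f]
    rfl

theorem dsum_cont {ι : Type} (S : Finset ι) (x : ι → ℂ) : Continuous (dsum Ω S x) :=
  continuous_finsetSum _ fun i _ => (continuous_apply i).smul continuous_const

end Vale.Agent.P145W28
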