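import Vale.Agent.P145W28.Law
import Vale.Agent.P145W28.Pos
import Vale.Agent.P153D.Grn
import Vale.Agent.P145W.Props

/-!
The free field as a random distribution, and the convergence in the space of distributions.
-/

set_option autoImplicit false
set_option linter.all false

namespace Vale.Agent.P145W28

open MeasureTheory ProbabilityTheory Filter Topology Set TopologicalSpace
open Vale.Agent.P153D Vale.Agent.P145 Vale.Agent.P153.H212 Vale.Agent.P145W

/-- All maps are almost everywhere measurable for the law of the model. -/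
theorem aem_law (t : ℝ) {n : ℕ} (p : ZMod n → ℤ × ℤ) (F : Finset (ℤ × ℤ)) {Y : Type}
    [MeasurableSpace Y] (X : JG.Conf → Y) : AEMeasurable X (JG.law t p F) := by
  rw [JG.law]
  generalize (∑ S' ∈ (JG.free p F).powerset, JG.wt t F (JG.conf S')) = Z
  induction (JG.free p F).powerset using Finset.cons_induction with
  | empty => exact aemeasurable_zero_measure
  | cons a s ha ih =>
    rw [Finset.sum_cons]
    exact aemeasurable_add_measure_iff.2 ⟨aemeasurable_dirac.smul_measure _, ih⟩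

/-- The field of a height function is a distribution. -/
theorem exists_X (Ω : Opens ℂ) (F : Finset (ℤ × ℤ)) (H : JG.Site → ℝ) (δ : ℝ) :
    ∃ T : Di Ω, ∀ φ : Te Ω, T φ = JG.fldD F H δ fun z => φ (eR.symm z) := by
  refine ⟨dsum Ω (JG.verts F) (fun v => eR.symm (δ * v.1, δ * v.2))
    fun v => δ ^ 2 * H (Sum.inl v), fun φ => ?_⟩
  rw [dsum_apply, JG.fldD, Finset.mul_sum]
  simp only [mul_assoc]

theorem dirCov_eq (D : Set ℂ) (f g : ℂ → ℝ) :
    JG.dirCov (eR '' D) (fun z => f (eR.symm z)) (fun z => g (eR.symm z)) =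
      (V D (fun z => f z + g z) - V D (fun z => f z - g z)) / 4 := by
  rw [← V_eq, ← V_eq]
  rfl

theorem isGFF_iff {Ω : Opens ℂ} (G : ℂ → ℂ → ℝ) (h : Measure (Di Ω)) :
    IsGFF G h ↔ IsField (fun z w => 2 * Real.pi * G z w) h := by
  refine and_congr_right fun _ => and_congr_right fun _ => forall₂_congr fun f g => ?_
  simp only [← integral_const_mul]
  refine Eq.congr_right (congrArg _ (funext fun z => congrArg _ (funext fun w => ?_)))
  ring

theorem fld_of (hG : GRN) : FLD := by
  intro D Φ hD inst hB t s hs hC hex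
  obtain rfl : inst = ms D := hB.measurable_eq
  obtain rfl : D = opn Φ := Opens.ext hD
  refine ⟨(hG Φ).1, fun G hG' => ?_⟩
  have hV : ∀ f : Te (opn Φ), 0 ≤ V (dom Φ) f := by
    intro f
    have h := le_V Φ (φ := f) (ψ := (0 : Te (opn Φ))) (test_on f) (test_on 0)
    have e : ((0 : Te (opn Φ)) : ℂ → ℝ) = fun _ => 0 := rfl
    simpa [e] using h
  have hv : ∀ f : Te (opn Φ), 0 ≤ 2 * Real.pi * V (dom Φ) f := fun f =>
    mul_nonneg (by positivity) (hV f)
  have hc : ∀ f g : ℂ → ℝ,
      (∫ z in dom Φ, ∫ w in dom Φ, f z * (2 * Real.pi * G z w) * g w) =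
        2 * Real.pi * ∫ z in dom Φ, ∫ w in dom Φ, f z * G z w * g w := by
    intro f g
    simp only [← integral_const_mul]
    refine congrArg _ (funext fun z => congrArg _ (funext fun w => ?_))
    ring
  have hiff := isField_iff (Ω := opn Φ) (G := fun z w => 2 * Real.pi * G z w)
    (v := fun f => 2 * Real.pi * V (dom Φ) f) hv
    (fun f => (hc f f).trans
      (congrArg _ ((hG Φ).2 G hG' f f (test_on f) (test_on f)).1))
    (fun f g => (hc f g).trans (by
      rw [((hG Φ).2 G hG' f g (test_on f) (test_on g)).2, ← mul_sub, mul_div_assoc]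
      rfl))
  have hcov : ∀ f : Te (opn Φ), JG.dirCov (eR '' dom Φ) (fun z => f (eR.symm z))
      (fun z => f (eR.symm z)) = V (dom Φ) f := fun f => by
    have h := (hG Φ).2 G hG' f f (test_on f) (test_on f)
    rw [dirCov_eq, ← h.2, h.1]
  have one : ∀ (δ : ℕ → ℝ) (N : ℕ → ℕ) (p : ∀ n, ZMod (N n) → ℤ × ℤ) (F : ℕ → Finset (ℤ × ℤ)),
      JG.Approx (eR '' dom Φ) δ N p F →
      ∀ [∀ n, IsProbabilityMeasure (JG.law t (p n) (F n))] (H : ℕ → JG.Conf → JG.Site → ℝ),
        (∀ n, ∀ᵐ σ ∂JG.law t (p n) (F n), JG.IsHt (p n) (F n) σ (H n σ)) →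
        ∀ X : ℕ → JG.Conf → Di (opn Φ),
          (∀ n σ φ, X n σ φ = JG.fldD (F n) (H n σ) (δ n) (fun z => φ (eR.symm z))) →
          ∀ f : Te (opn Φ), TendstoInDistribution (fun n σ => X n σ f) atTop id
            (fun n => JG.law t (p n) (F n))
            (gaussianReal 0 (s ^ 2 * (2 * Real.pi * V (dom Φ) f)).toNNReal) := by
    intro δ N p F hA _ H hH X hX f
    obtain ⟨_, -, h1⟩ := hC δ N p F hA
    obtain ⟨h2, h3⟩ := h1 H hH 1 (fun _ z => f (eR.symm z))
      fun _ => (testOn_iff _ _).1 (test_on f)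
    simp only [hX, ← hcov]
    exact one_dim h2 h3
  have hP : ∃ P : Measure (Di (opn Φ)), IsProbabilityMeasure P ∧ ∀ f : Te (opn Φ),
      P.map (fun T => T f) = gaussianReal 0 (2 * Real.pi * V (dom Φ) f).toNNReal := by
    obtain ⟨δ, N, p, F, hA⟩ := hex
    obtain ⟨_, h0, -⟩ := hC δ N p F hA
    classical
    choose X hX using fun (n : ℕ) (σ : JG.Conf) => exists_X (opn Φ) (F n)
      (Classical.epsilon (JG.IsHt (p n) (F n) σ)) (δ n)
    exact exists_law (fun n => aem_law t (p n) (F n) (X n)) hv (pow_pos hs 2)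
      (one δ N p F hA (fun n σ => Classical.epsilon (JG.IsHt (p n) (F n) σ))
        (fun n => (h0 n).mono fun σ hσ => Classical.epsilon_spec hσ) X hX)
  obtain ⟨P, p1, p2⟩ := hP
  refine ⟨P, p1, (isGFF_iff G P).2 ((hiff P).2 ⟨p1, p2⟩), fun P' hP' => ?_, fun f hf => ?_,
    fun δ N p F hA _ H hH X hX => ?_⟩
  · obtain ⟨q1, q2⟩ := (hiff P').1 ((isGFF_iff G P').1 hP')
    exact uni _ _ _ q1 p1 fun f => by rw [q2, p2]
  · rw [(sq_gauss (p2 f)).2, Real.coe_toNNReal _ (hv f)]
    exact mul_pos (by positivity)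
      (V_pos Φ (test_on f) fun h => hf (DFunLike.coe_injective h))
  · exact law_of (fun n => aem_law t (p n) (F n) (X n)) hv p2 s (one δ N p F hA H hH X hX)

end Vale.Agent.P145W28
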